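import Vale.Agent.P004Z.H.Glob

/-! # P014T: the sum of the local symbols is the height pairing, with the explicit functional -/

set_option autoImplicit false
set_option linter.all false

open Real
open scoped Classical

noncomputable section

namespace Vale.Agent.P014T.Gl

open WeierstrassCurve.Affine Vale.Agent.P004H.H666 Vale.Agent.P004M.TE Vale.Agent.P004Z.H

variable {A B : ℤ} {V : ℕ → AbsoluteValue ℂ ℝ}

/-- the restriction to `ℚ̄` -/
def vq (V : ℕ → AbsoluteValue ℂ ℝ) (p : ℕ) : AbsoluteValue Qb ℝ :=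
  (V p).comp (io : Qb →+* ℂ).injective

theorem vq_apply (p : ℕ) (x : Qb) : vq V p x = V p (io x) := rfl

theorem pl_vq (h : PlC V) : Pl (vq V) := ⟨fun n => by simp [vq_apply, h.inf], fun p hp a b => by
  simpa only [vq_apply, map_add] using h.na p hp _ _, fun p hp => by simp [vq_apply, h.self p hp]⟩

theorem iE_inj : Function.Injective (iE (A := A) (B := B)) := pm_inj _ _ _

/-- **the sum of the local symbols is the height pairing** -/
theorem globx (h : PlC V) (hD : 4 * A ^ 3 + 27 * B ^ 2 ≠ 0) {ι : Type}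
    (s : Finset ι) (n : ι → ℤ) (R : ι → EC A B) (hR : ∀ i ∈ s, R i ∈ Fo A B)
    (h0 : ∑ i ∈ s, n i = 0) : ∃ (l : EC A B →+ ℝ) (Y : Pt A B), iE Y = ∑ i ∈ s, n i • R i ∧
    (∀ Q, l (iE Q) = hh (vq V) (Y + Q) - hh (vq V) Y - hh (vq V) Q) ∧
    l (iE Y) = 2 * hh (vq V) Y ∧
    ∀ T ∈ Fo A B, ∀ Q ∈ Fo A B, ∀ α, IsAlgebraic ℚ α → ∀ t,
      (∀ σ, tt (GG V s n R T Q α σ) + tt (GG V s n R T Q α (cj.trans σ)) = t) → t = -2 * l Q := by
  have hv := vq_apply (V := V)
  have pl := pl_vq h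
  generalize vq V = v at *
  have hD' : 16 * (4 * algebraMap ℚ Qb A ^ 3 + 27 * algebraMap ℚ Qb B ^ 2) ≠ 0 := by
    simp only [map_intCast]
    exact_mod_cast mul_ne_zero (by norm_num) hD
  obtain ⟨β, h1, h2⟩ := ex_bil _ (hh_par pl hD')
  choose! R' hR' using fun i hi => Fo.ex (hR i hi)
  have e0 : iE (∑ i ∈ s, n i • R' i) = ∑ i ∈ s, n i • R i := by
    rw [map_sum]
    exact Finset.sum_congr rfl fun i hi => by rw [map_zsmul, hR' i hi]
  obtain ⟨l, hl⟩ := (Module.Baer.of_divisible ℝ).extension_property_addMonoidHom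
    (iE (A := A) (B := B)) (pm_inj _ _ _) (β (∑ i ∈ s, n i • R' i))
  have hl' := fun P => DFunLike.congr_fun hl P
  simp only [AddMonoidHom.comp_apply] at hl'
  refine ⟨l, _, e0, fun Q => (hl' Q).trans (h1 _ _), (hl' _).trans (h2 _),
    fun T hT Q hQ α hα t e => ?_⟩
  obtain ⟨T, rfl⟩ := Fo.ex hT
  obtain ⟨Q, rfl⟩ := Fo.ex hQ
  obtain ⟨α, rfl⟩ := ex_io hα
  obtain ⟨c, hc⟩ := ex_res cj
  let F : GQ → ℕ → ℝ := ∑ i ∈ s, (n i : ℝ) • (lf v (R' i - (T + Q)) + (-1 : ℝ) • lf v (R' i - T)) +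
    (-1 : ℝ) • fun σ p => log (v p (σ α))
  have a := ad_lf pl hD'
  have a1 := fun i => Ad.smul_mem (n i : ℝ) (add_mem (a (R' i - (T + Q)))
    (Ad.smul_mem (-1 : ℝ) (a (R' i - T))))
  have k : ∀ σ g, (∀ x, σ (io x) = io (g x)) → GG V s n R (iE T) (iE Q) (io α) σ = F g := by
    intro σ g e
    ext p
    simp only [GG, F, Pi.add_apply, Finset.sum_apply, Pi.smul_apply, smul_eq_mul, lf, e, hv]
    rw [neg_one_mul, sub_eq_add_neg]
    congr 1
    refine Finset.sum_congr rfl fun i hi => ?_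
    rw [← hR' i hi, ← map_add, ← map_sub, ← map_sub, sp_iE e, sp_iE e, iE,
      lam_map (io : Qb →+* ℂ) _ _ (hv p · |>.symm), lam_map (io : Qb →+* ℂ) _ _ (hv p · |>.symm)]
    ring
  have h3 := mn_two (F := F) (add_mem (sum_mem fun i _ => a1 i) (Ad.smul_mem _ (pl.ad_log α))) c
    (t := t) fun g => by
      obtain ⟨σ, hσ⟩ := ex_ext g
      rw [← k σ g hσ, ← k (cj.trans σ) (g * c) fun x => by
        rw [RingEquiv.trans_apply, hc, hσ]; rfl, e]
  rw [mn_add (sum_mem fun i _ => a1 i) (Ad.smul_mem _ (pl.ad_log α)), mn_smul (pl.ad_log α), pl.prod,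
    mn_sum _ fun i _ => a1 i] at h3
  have h4 : ∀ i ∈ s, mn ((n i : ℝ) • (lf v (R' i - (T + Q)) + (-1 : ℝ) • lf v (R' i - T))) =
      -β (n i • R' i) Q + n i * (β T Q + hh v (-Q)) := fun i _ => by
    have := h1 (R' i - T) (-Q)
    rw [map_neg, map_sub, AddMonoidHom.sub_apply, show R' i - T + -Q = R' i - (T + Q) by abel] at this
    rw [mn_smul (add_mem (a _) (Ad.smul_mem _ (a _))), mn_add (a _) (Ad.smul_mem _ (a _)),
      mn_smul (a _), map_zsmul, AddMonoidHom.zsmul_apply, zsmul_eq_mul]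
    simp only [hh] at this ⊢
    rw [show mn (lf v (R' i - (T + Q))) = _ from eq_add_of_sub_eq (eq_add_of_sub_eq this.symm)]
    ring
  rw [Finset.sum_congr rfl h4, Finset.sum_add_distrib, ← Finset.sum_mul, ← Int.cast_sum, h0,
    Finset.sum_neg_distrib] at h3
  rw [hl', map_sum, AddMonoidHom.finset_sum_apply, ← h3]
  simp

end Vale.Agent.P014T.Gl
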