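import Vale.Agent.P014T.Ht.Sh

/-! # P014T: the canonical height and the regulator -/

set_option autoImplicit false
set_option linter.all false

open Real Filter Topology
open scoped Classical

noncomputable section

namespace Vale.Agent.P014T.Cn

open WeierstrassCurve Vale.Agent.P014T.Sm Vale.Agent.P004Z.H
open P004M.TE (Cv ga Qb GQ xp_ga ga_mul)
open P004H.H666 (xp)

section Q

variable {a b : ℚ} {v : ℕ → AbsoluteValue Qb ℝ} (pl : Pl v)
include pl

theorem hx_rat (q : ℚ) : hx v (q : Qb) = log (max (|q.num| : ℤ) (q.den : ℤ) : ℤ) := by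
  have d0 (p) : 0 < v p q.den := (v p).pos (Nat.cast_ne_zero.2 q.den_nz)
  have e (p) : log⁺ (v p q) + log (v p q.den) = log (max (v p q.num) (v p q.den)) := by
    rw [posLog_eq_log_max_one ((v p).nonneg _), ← log_mul (by positivity) (d0 p).ne',
      max_mul_of_nonneg _ _ (d0 p).le, one_mul, ← map_mul,
      show (q * q.den : Qb) = q.num by exact_mod_cast q.mul_den_eq_num, max_comm]
  have k := tt_add (pl.fs_pos q) (pl.fs_log q.den)
  rw [pl.tt_nat q.den_nz, add_zero, tt, finsum_eq_zero_of_forall_eq_zero fun p : Nat.Primes => by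
    have := pl.cop p.2 (a := q.num) (b := q.den) (Int.isCoprime_iff_gcd_eq_one.2 q.reduced)
    rw [Int.cast_natCast] at this
    rw [Pi.add_apply, e, le_antisymm (max_le (pl.int_le p.2 _)
      (by simpa using pl.int_le p.2 q.den)) this, log_one], Pi.add_apply, e, add_zero] at k
  simp only [hx, map_ratCast, mn_const]
  rw [← k, pl.inf]
  congr 1
  push_cast
  congr 1
  rw [← Int.cast_abs, ← Int.natCast_natAbs, Int.cast_natCast, ← pl.inf]
  rcases Int.natAbs_eq q.num with e | e <;> rw [e] <;> simp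

variable (hD : 16 * (4 * algebraMap ℚ Qb a ^ 3 + 27 * algebraMap ℚ Qb b ^ 2) ≠ 0)
include hD

theorem hx_bd : ∃ C, ∀ P : (Cv Qb a b).Point, |hx v (xp P) - 2 * hh v P| ≤ C := by
  obtain ⟨C', h'⟩ := hx_le pl hD
  choose C hC using fun p => lam_bd (v p) hD
  let f : ℕ → ℝ := fun p =>
    if Sz (v p) (algebraMap ℚ Qb a) (algebraMap ℚ Qb b) 1 then 0 else 2 * C p
  have hf : Fs f := (fin_bad pl hD).subset fun p hp e => hp (if_pos e)
  refine ⟨max C' (tt f), fun P => abs_le.2 ⟨?_, by linarith [h' P, le_max_left C' (tt f)]⟩⟩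
  have k : ∀ (σ : GQ) p, ((2 : ℝ) • lf v P) σ p ≤
      ((fun σ p => log⁺ (v p (σ (xp P)))) + fun _ => f : GQ → ℕ → ℝ) σ p := fun σ p => by
    have h1 := abs_le.1 (hC p (ga σ P))
    have h2 := nh_eq (v p) (ga σ P)
    rw [xp_ga] at h2
    simp only [lf, f, Pi.add_apply, Pi.smul_apply, smul_eq_mul]
    split_ifs with e
    · rw [lam_good e]; linarith
    · linarith [h1.2]
  have := mn_mono (Ad.smul_mem _ (ad_lf pl hD P)) (add_mem (pl.ad_pos _) (ad_const hf))
    (fun σ => k σ 0) fun σ p _ => k σ p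
  rw [mn_smul (ad_lf pl hD P), mn_add (pl.ad_pos _) (ad_const hf), mn_const] at this
  have := le_max_right C' (tt f)
  rw [hh, hx]
  linarith

theorem hh_zsmul (n : ℤ) (P : (Cv Qb a b).Point) : hh v (n • P) = n ^ 2 * hh v P := by
  obtain ⟨β, -, h2⟩ := ex_bil _ (hh_par pl hD)
  have := h2 (n • P)
  rw [map_zsmul, map_zsmul, AddMonoidHom.zsmul_apply, h2, zsmul_eq_mul, zsmul_eq_mul] at this
  linarith

theorem hh_nsmul (n : ℕ) (P : (Cv Qb a b).Point) : hh v (n • P) = n ^ 2 * hh v P := by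
  simpa using hh_zsmul pl hD n P

omit pl hD in
theorem lim {f : ℕ → ℝ} {c C : ℝ} (h : ∀ n, |f n - 2 * (((2 ^ n : ℕ) : ℝ) ^ 2 * c)| ≤ C) :
    Tendsto (fun n => f n / 4 ^ n) atTop (𝓝 (2 * c)) := by
  rw [tendsto_iff_norm_sub_tendsto_zero]
  refine squeeze_zero (fun _ => norm_nonneg _) (fun n => ?_)
    ((tendsto_pow_atTop_atTop_of_one_lt (r := (4 : ℝ)) (by norm_num)).const_div_atTop C)
  have := h n
  rw [Nat.cast_pow, ← pow_mul, pow_mul', show ((2 : ℕ) : ℝ) ^ 2 = 4 by norm_num] at this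
  rw [show f n / 4 ^ n - 2 * c = (f n - 2 * (4 ^ n * c)) / 4 ^ n by field_simp, norm_eq_abs, abs_div,
    abs_of_pos (a := (4 : ℝ) ^ n) (by positivity)]
  gcongr

theorem hh_nonneg (P : (Cv Qb a b).Point) : 0 ≤ hh v P := by
  obtain ⟨C, hC⟩ := hx_bd pl hD
  have := ge_of_tendsto' (lim (f := fun n => hx v (xp (2 ^ n • P))) (c := hh v P) fun n => by
    rw [← hh_nsmul pl hD]; exact hC _) fun n => div_nonneg (pl.hx_nonneg _) (by positivity)
  linarith

theorem hh_zero {P : (Cv Qb a b).Point} : hh v P = 0 ↔ IsOfFinAddOrder P := by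
  rw [isOfFinAddOrder_iff_nsmul_eq_zero]
  refine ⟨hh_tors pl hD, fun ⟨n, h0, e⟩ => ?_⟩
  have h1 := hh_nsmul pl hD n P
  have h2 := hh_nsmul pl hD 0 P
  rw [zero_nsmul, ← e, h1] at h2
  simpa [h0.ne'] using h2

omit pl hD in
theorem hh_ga (g : GQ) (P : (Cv Qb a b).Point) : hh v (ga g P) = hh v P := by
  rw [hh, hh, ← mn_shift (lf v P) g]
  exact congrArg mn (funext fun σ => funext fun p => by simp only [lf, ga_mul])

end Q

variable {E : WeierstrassCurve ℚ} [E.IsElliptic] {a b u r s t : ℚ} {v : ℕ → AbsoluteValue Qb ℝ}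

theorem md_hD (h : Md E a b u r s t) :
    16 * (4 * algebraMap ℚ Qb a ^ 3 + 27 * algebraMap ℚ Qb b ^ 2) ≠ 0 := by
  have : 16 * (4 * a ^ 3 + 27 * b ^ 2) ≠ 0 := fun e =>
    mul_ne_zero (pow_ne_zero 12 h.ne) E.isUnit_Δ.ne_zero (by linear_combination -Md.disc h - e)
  simp only [eq_ratCast]
  exact_mod_cast this

theorem nv_bd (pl : Pl v) (h : Md E a b u r s t) :
    ∃ C, ∀ P, |naiveHeight E P - 2 * hh v (up h P)| ≤ C := by
  obtain ⟨C, hC⟩ := hx_bd pl (md_hD h)
  have u0 : (u : Qb) ≠ 0 := by exact_mod_cast h.ne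
  have n := pl.hx_nonneg
  have l := log_nonneg (one_le_two (α := ℝ))
  refine ⟨C + (log 2 + hx v r + hx v (-u ^ 2)) + (log 2 + hx v (-r / u ^ 2) + hx v (-1 / u ^ 2)), ?_⟩
  rintro (_ | ⟨x, y, k⟩)
  · have := hC 0
    rw [show hx v (xp (0 : (Cv Qb a b).Point)) = 0 by simpa using hx_rat pl 1] at this
    exact this.trans (by linarith [n r, n (-u ^ 2), n (-r / u ^ 2), n (-1 / u ^ 2)])
  · have h1 := abs_le.1 (hC (up h (.some x y k)))
    have h2 := pl.hx_step r (-u ^ 2) x
    have h3 := pl.hx_step (-r / u ^ 2) (-1 / u ^ 2) (r - -u ^ 2 * x)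
    rw [show (-r / u ^ 2 - -1 / u ^ 2 * (r - -u ^ 2 * x) : Qb) = x by field_simp; ring] at h3
    rw [xp_upF, show algebraMap ℚ Qb (u ^ 2 * x + r) = r - -u ^ 2 * x by simp [add_comm]] at h1
    rw [show naiveHeight E (.some x y k) = hx v x from (hx_rat pl x).symm, abs_le]
    constructor <;> linarith [n r, n (-u ^ 2), n (-r / u ^ 2), n (-1 / u ^ 2)]

theorem tendsto (pl : Pl v) (h : Md E a b u r s t) (P : E.toAffine.Point) :
    Tendsto (fun n : ℕ => naiveHeight E (2 ^ n • P) / 4 ^ n) atTop (𝓝 (2 * hh v (up h P))) := by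
  obtain ⟨C, hC⟩ := nv_bd pl h
  exact lim fun n => by rw [← hh_nsmul pl (md_hD h), ← map_nsmul]; exact hC _

/-- **the canonical height is twice the sum of the local heights** -/
theorem can_eq (pl : Pl v) (h : Md E a b u r s t) (P : E.toAffine.Point) :
    canHeight E P = 2 * hh v (up h P) := (tendsto pl h P).limUnder_eq

theorem ex_can (E : WeierstrassCurve ℚ) [E.IsElliptic] : ∃ (v : _) (a b : ℚ)
    (f : E.toAffine.Point →+ (Cv Qb a b).Point), Pl v ∧
      16 * (4 * algebraMap ℚ Qb a ^ 3 + 27 * algebraMap ℚ Qb b ^ 2) ≠ 0 ∧ Function.Injective f ∧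
        ∀ P, canHeight E P = 2 * hh v (f P) := by
  obtain ⟨v, pl⟩ := Wm.ex_pl
  have h := md E one_ne_zero
  exact ⟨v, _, _, up h, pl, md_hD h, upF_inj h, can_eq pl h⟩

theorem can_par (P Q : E.toAffine.Point) :
    canHeight E (P + Q) + canHeight E (P - Q) = 2 * canHeight E P + 2 * canHeight E Q := by
  obtain ⟨v, a, b, f, pl, hD, -, e⟩ := ex_can E
  simp only [e, map_add, map_sub]
  linarith [hh_par pl hD (f P) (f Q)]

theorem can_zsmul (n : ℤ) (P : E.toAffine.Point) : canHeight E (n • P) = n ^ 2 * canHeight E P := by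
  obtain ⟨v, a, b, f, pl, hD, -, e⟩ := ex_can E
  rw [e, e, map_zsmul, hh_zsmul pl hD]
  ring

theorem can_nonneg (P : E.toAffine.Point) : 0 ≤ canHeight E P := by
  obtain ⟨v, a, b, f, pl, hD, -, e⟩ := ex_can E
  linarith [e P, hh_nonneg pl hD (f P)]

theorem can_zero {P : E.toAffine.Point} : canHeight E P = 0 ↔ IsOfFinAddOrder P := by
  obtain ⟨v, a, b, f, pl, hD, i, e⟩ := ex_can E
  rw [e, ← i.isOfFinAddOrder_iff, ← hh_zero pl hD]
  simp

theorem can_pos {P : E.toAffine.Point} (h : ¬ IsOfFinAddOrder P) : 0 < canHeight E P :=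
  (can_nonneg P).lt_of_ne fun e => h (can_zero.1 e.symm)

/-- the height pairing is bilinear -/
theorem ex_pair (E : WeierstrassCurve ℚ) [E.IsElliptic] :
    ∃ β : E.toAffine.Point →+ E.toAffine.Point →+ ℝ, (∀ P Q, β P Q = 2 * heightPairing E P Q) ∧
      ∀ P, β P P = 2 * canHeight E P := by
  obtain ⟨β, h1, h2⟩ := ex_bil _ (can_par (E := E))
  exact ⟨β, fun P Q => by rw [h1, heightPairing]; ring, h2⟩

theorem pair_self (P : E.toAffine.Point) : heightPairing E P P = canHeight E P := by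
  obtain ⟨β, h1, h2⟩ := ex_pair E
  linarith [h1 P P, h2 P]

theorem can_tors (P : E.toAffine.Point) {T : E.toAffine.Point} (h : IsOfFinAddOrder T) :
    canHeight E (P + T) = canHeight E P := by
  obtain ⟨β, h1, -⟩ := ex_pair E
  have := h1 P T
  rw [(isOfFinAddOrder_iff_eq_zero _).1 ((β P).isOfFinAddOrder h), heightPairing, can_zero.2 h] at this
  linarith

theorem can_of {P Q : E.toAffine.Point} {n : ℤ} (h : IsOfFinAddOrder (Q - n • P)) :
    canHeight E Q = n ^ 2 * canHeight E P := by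
  rw [← can_zsmul, ← can_tors (n • P) h, add_sub_cancel]

/-! ## bases modulo torsion -/

theorem of_zsmul {G : Type*} [AddCommGroup G] {x : G} {n : ℤ} (h : IsOfFinAddOrder (n • x))
    (h0 : n ≠ 0) : IsOfFinAddOrder x := by
  obtain ⟨m, m0, e⟩ := isOfFinAddOrder_iff_zsmul_eq_zero.1 h
  exact isOfFinAddOrder_iff_zsmul_eq_zero.2 ⟨m * n, mul_ne_zero m0 h0, by rwa [mul_zsmul]⟩

omit [E.IsElliptic] in
theorem tors_iff {x : E.toAffine.Point} :
    (Submodule.torsion ℤ E.toAffine.Point).mkQ x = 0 ↔ IsOfFinAddOrder x := by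
  rw [Submodule.mkQ_apply, Submodule.Quotient.mk_eq_zero, ← AddCommGroup.mem_torsion,
    ← Submodule.torsion_int, Submodule.mem_toAddSubgroup]

omit [E.IsElliptic] in
theorem basis_iff {n : ℕ} {P : Fin n → E.toAffine.Point} : IsBasisModTorsion E P ↔
    Function.Bijective (Fintype.linearCombination ℤ fun i =>
      (Submodule.torsion ℤ E.toAffine.Point).mkQ (P i)) := by
  rw [Function.bijective_iff_existsUnique, (Submodule.mkQ_surjective _).forall]
  refine forall_congr' fun Q => existsUnique_congr fun c => ?_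
  rw [← tors_iff, map_sub, sub_eq_zero, eq_comm, Fintype.linearCombination_apply, map_sum]
  simp only [map_zsmul]

theorem ex_basis (E : WeierstrassCurve ℚ) [E.IsElliptic] :
    ∃ P : Fin (Module.finrank ℤ E.toAffine.Point) → E.toAffine.Point, IsBasisModTorsion E P := by
  have := finite E
  let B := Module.finBasisOfFinrankEq ℤ (E.toAffine.Point ⧸ Submodule.torsion ℤ E.toAffine.Point)
    (finrank_quotient_eq_of_le_torsion le_rfl)
  choose P hP using fun i => Submodule.mkQ_surjective _ (B i)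
  refine ⟨P, basis_iff.2 ?_⟩
  rw [funext hP]
  exact ⟨linearIndependent_iff_injective_fintypeLinearCombination.1 B.linearIndependent,
    LinearMap.range_eq_top.1 (by rw [Fintype.range_linearCombination, B.span_eq])⟩

omit [E.IsElliptic] in
theorem basis_rank {n : ℕ} {P : Fin n → E.toAffine.Point} (h : IsBasisModTorsion E P) :
    Module.finrank ℤ E.toAffine.Point = n := by
  rw [← finrank_quotient_eq_of_le_torsion le_rfl,
    ← (LinearEquiv.ofBijective _ (basis_iff.1 h)).finrank_eq, Module.finrank_fin_fun]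

omit [E.IsElliptic] in
theorem basis_zero {P : Fin 0 → E.toAffine.Point} :
    IsBasisModTorsion E P ↔ ∀ Q : E.toAffine.Point, IsOfFinAddOrder Q := by
  simp [IsBasisModTorsion]

omit [E.IsElliptic] in
theorem reg_zero (P : Fin 0 → E.toAffine.Point) : regulator E P = 1 := Matrix.det_fin_zero

omit [E.IsElliptic] in
theorem basis_one {P : Fin 1 → E.toAffine.Point} : IsBasisModTorsion E P ↔
    ¬ IsOfFinAddOrder (P 0) ∧ ∀ Q : E.toAffine.Point, ∃ n : ℤ, IsOfFinAddOrder (Q - n • P 0) := by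
  simp only [IsBasisModTorsion, Fin.sum_univ_one]
  refine ⟨fun h => ⟨fun k => ?_, fun Q => (h Q).exists.elim fun n e => ⟨_, e⟩⟩,
    fun h Q => (h.2 Q).elim fun n e => ⟨fun _ => n, e, fun m e' => funext fun i => ?_⟩⟩
  · exact zero_ne_one (congrFun ((h (P 0)).unique (y₁ := 0) (y₂ := 1) (by simpa using k) (by simp)) 0)
  · by_contra c
    have := e.add e'.neg
    rw [show Q - n • P 0 + -(Q - m 0 • P 0) = (m 0 - n) • P 0 by module] at this
    exact h.1 (of_zsmul this (sub_ne_zero.2 (by rwa [Subsingleton.elim 0 i])))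

theorem reg_one (P : Fin 1 → E.toAffine.Point) : regulator E P = canHeight E (P 0) :=
  (Matrix.det_fin_one _).trans (pair_self _)

theorem reg_pos {P : Fin 1 → E.toAffine.Point} (h : IsBasisModTorsion E P) : 0 < regulator E P :=
  reg_one P ▸ can_pos (basis_one.1 h).1

/-- in rank one the height of a point is a square times the regulator -/
theorem can_reg {P : Fin 1 → E.toAffine.Point} {Q : E.toAffine.Point} {n : ℤ}
    (h : IsOfFinAddOrder (Q - n • P 0)) : canHeight E Q = n ^ 2 * regulator E P :=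
  reg_one P ▸ can_of h

/-- the square root of the ratio of heights is an index -/
theorem idx {P : Fin 1 → E.toAffine.Point} (h : IsBasisModTorsion E P) {Q : E.toAffine.Point} {n : ℤ}
    (k : IsOfFinAddOrder (Q - n • P 0)) :
    (AddSubgroup.zmultiples Q ⊔ AddCommGroup.torsion _).index = n.natAbs := by
  choose f hf using (basis_one.1 h).2
  have u {Q} {m : ℤ} (k : IsOfFinAddOrder (Q - m • P 0)) : f Q = m :=
    congrFun ((h Q).unique (y₁ := fun _ => f Q) (y₂ := fun _ => m) (by simpa using hf Q)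
      (by simpa using k)) 0
  let φ : E.toAffine.Point →+ ℤ := .mk' f fun x y => u (by
    have := (hf x).add (hf y)
    rwa [show x - f x • P 0 + (y - f y • P 0) = x + y - (f x + f y) • P 0 by module] at this)
  rw [← Int.index_zmultiples, ← (AddSubgroup.zmultiples n).index_comap_of_surjective (f := φ)
    fun m => ⟨m • P 0, u (by simp)⟩]
  congr 1
  refine le_antisymm (sup_le (AddSubgroup.zmultiples_le.2 ⟨1, (one_zsmul n).trans (u k).symm⟩)
    fun x a => ⟨0, (zero_zsmul n).trans (u (by rwa [zero_zsmul, sub_zero])).symm⟩) fun x ⟨m, e⟩ => ?_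
  refine AddSubgroup.mem_sup.2 ⟨m • Q, ⟨m, rfl⟩, x - m • Q, ?_, by abel⟩
  have := (hf x).add (k.neg.zsmul (i := m))
  rwa [show f x = m * n from e.symm, show x - (m * n) • P 0 + m • -(Q - n • P 0) = x - m • Q by
    module] at this

end Vale.Agent.P014T.Cn
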