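import Vale.Agent.P004S.Gal2
import Vale.Agent.P004S.Cnz
import Vale.Agent.P004Z.H.Glob
import Vale.Agent.P004M.TE.Tate

/-! # P014T: the theorem of Mordell and Weil -/

set_option autoImplicit false
set_option linter.all false

open NumberField
open scoped Classical

noncomputable section

namespace Vale.Agent.P014T.Wm

open Vale.Agent.P022 (Qb GQ GK)
open Vale.Agent.P027M.S (Inert)
open Vale.Agent.P022E.GW (Ov Ch)
open P004M.TE (Pt ga ga_mul ga_one ev_ga xp_ga)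
open P004H.H666 (xp)
open P004Z.H (Pl hh hx)

variable {A B : ℤ} {Γ : Subgroup GQ}

/-- the points fixed by `Γ` -/
def Fx (A B : ℤ) (Γ : Subgroup GQ) : AddSubgroup (Pt A B) where
  carrier := {y | ∀ g ∈ Γ, ga g y = y}
  zero_mem' _ _ := map_zero _
  add_mem' h h' g a := by rw [map_add, h g a, h' g a]
  neg_mem' h g a := by rw [map_neg, h g a]

theorem mem_Fx {y : Pt A B} : y ∈ Fx A B Γ ↔ ∀ g ∈ Γ, ga g y = y := Iff.rfl

/-- **the weak theorem** -/
theorem weak (hD : 4 * A ^ 3 + 27 * B ^ 2 ≠ 0) (hΓ : IsOpen (Γ : Set GQ)) :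
    (nsmulAddMonoidHom (α := Fx A B Γ) 2).range.FiniteIndex := by
  have hD' : 4 * (A : ℚ) ^ 3 + 27 * (B : ℚ) ^ 2 ≠ 0 := by exact_mod_cast hD
  let M := (nsmulAddMonoidHom (α := Pt A B) 2).ker
  have fM : Finite M := Nat.finite_of_card_ne_zero
    ((P004M.TE.card_two (L := Qb) two_ne_zero hD').trans_ne (by norm_num))
  letI : Module (ZMod 2) M := AddCommGroup.zmodModule fun x => Subtype.ext x.2
  let ρ : GQ → M →ₗ[ZMod 2] M := fun g => (((ga g).comp M.subtype).codRestrict M fun x => by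
    show 2 • ga g (x : Pt A B) = 0
    rw [← map_nsmul, show 2 • (x : Pt A B) = 0 from x.2, map_zero]).toZModLinearMap 2
  let H : Subgroup GQ :=
    { carrier := {g | ∀ x : M, ga g (x : Pt A B) = x}
      one_mem' := fun x => ga_one _
      mul_mem' := fun a b x => by rw [ga_mul, b, a]
      inv_mem' := fun {g} a x => by rw [← a x, ← ga_mul, inv_mul_cancel, ga_one, a] }
  have oH : IsOpen (H : Set GQ) := H.isOpen_of_mem_nhds (g := 1) (Filter.eventually_all.2 fun x : M =>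
    (ev_ga 1 (x : Pt A B)).mono fun g e => e.trans (ga_one _))
  obtain ⟨C, hC⟩ := P004S.cnt (H ⊓ Γ) (oH.inter hΓ)
  let U := (2 * (4 * A ^ 3 + 27 * B ^ 2)).natAbs.primeFactors
  have fin := (P004S.cnz M ρ H Γ {g | ∃ l P, Ov l P ∧ l ∉ U ∧ Inert P g} _ (P004S.idx_ne oH)
    (fun g a x => Subtype.ext (a x)) ((hC U).1.subset fun ξ k =>
      ⟨k.1, k.2.1, fun l P a b g c => k.2.2 g ⟨l, P, a, b, c⟩⟩) le_rfl).1.to_subtype
  choose h hh using fun y : Fx A B Γ => P004M.TE.dbl_surj two_ne_zero hD' (y : Pt A B)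
  have m (y : Fx A B Γ) (g) (a : g ∈ Γ) : ga g (h y) - h y ∈ M := by
    show 2 • (ga g (h y) - h y) = 0
    rw [nsmul_sub, ← map_nsmul, hh, y.2 g a, sub_self]
  let κ (y : Fx A B Γ) (g : GQ) : M := if a : g ∈ Γ then ⟨_, m y g a⟩ else 0
  have e (y) {g} (a : g ∈ Γ) : (κ y g : Pt A B) = ga g (h y) - h y := by simp only [κ, dif_pos a]
  refine @AddSubgroup.finiteIndex_of_finite_quotient _ _ _ (@Finite.of_injective _ _ fin
    (fun q => ⟨κ q.out, (IsLocallyConstant.iff_eventually_eq _).2 fun g => ?_,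
      fun g a k b => Subtype.ext ?_, fun g a => dif_neg a, ?_⟩) fun q q' k => ?_)
  · filter_upwards [continuous_subtype_val.continuousAt.eventually (ev_ga g (h q.out))] with k b
    exact Subtype.ext (by rw [e _ k.2, e _ g.2, b])
  · show _ = (κ _ g : Pt A B) + ga g (κ _ k)
    rw [e _ (mul_mem a b), e _ a, e _ b, ga_mul, map_sub]
    abel
  · rintro g ⟨l, P, o, b, c⟩
    by_cases a : g ∈ Γ
    · have := Fact.mk o.1
      obtain ⟨_, _, _, _, rd, h1, h2, -⟩ := P004M.TE.exists_rd (A := A) (B := B) (l := l) (fun d =>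
        b (Nat.mem_primeFactors.2 ⟨o.1, Int.natCast_dvd.1 d, by simpa using hD⟩)) o.2.1 o.2.2
      exact Subtype.ext (h1 _ (κ _ g).2 (by rw [e _ a, map_sub, h2 g c, sub_self]))
    · exact dif_neg a
  · rw [← q.out_eq', ← q'.out_eq', QuotientAddGroup.eq]
    refine ⟨⟨h q'.out - h q.out, fun g a => ?_⟩, Subtype.ext ?_⟩
    · have := congrArg (fun z => (z.1 g : Pt A B)) k
      simp only [e _ a] at this
      rw [map_sub, sub_eq_sub_iff_sub_eq_sub, this]
    · show 2 • (h q'.out - h q.out) = -q.out.1 + q'.out.1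
      rw [nsmul_sub, hh, hh, neg_add_eq_sub]

theorem hD_Qb (hD : 4 * A ^ 3 + 27 * B ^ 2 ≠ 0) :
    16 * (4 * algebraMap ℚ Qb A ^ 3 + 27 * algebraMap ℚ Qb B ^ 2) ≠ 0 := by
  simp only [map_intCast]
  exact_mod_cast mul_ne_zero (by norm_num) hD

/-- **Northcott** -/
theorem north {v : ℕ → AbsoluteValue Qb ℝ} (pl : Pl v) (hD : 4 * A ^ 3 + 27 * B ^ 2 ≠ 0)
    (hΓ : IsOpen (Γ : Set GQ)) (b : ℝ) : {y : Fx A B Γ | hh v (y : Pt A B) ≤ b}.Finite := by
  obtain ⟨C, hC⟩ := P004Z.H.hx_le pl (hD_Qb hD)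
  obtain ⟨L, _, _, j, rfl⟩ := P022E.GW.Hy.ex_fld hΓ
  refine ((P004Z.H.fin_xp (pl.north (2 * b + C) (Module.finrank ℚ L))).preimage
    Subtype.val_injective.injOn).subset fun y hy => ⟨?_, (hC _).trans (by simpa using hy)⟩
  obtain ⟨x, e⟩ := P022.H916.fixed j (x := xp (y : Pt A B)) fun g => by rw [← xp_ga, y.2 g g.2]
  rw [← e, show j x = j.toRatAlgHom x from rfl, minpoly.algHom_eq _ j.injective]
  exact minpoly.natDegree_le x

theorem ex_pl : ∃ v, Pl v :=
  (P004Z.H.ex_pl ((NormedField.toAbsoluteValue ℂ).comp (P004Z.H.io : Qb →+* ℂ).injective)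
    fun n => by
      show ‖P004Z.H.io (n : Qb)‖ = n
      simp).imp fun _ h => h.1

/-- **Mordell-Weil** -/
theorem fg (hD : 4 * A ^ 3 + 27 * B ^ 2 ≠ 0) (hΓ : IsOpen (Γ : Set GQ)) :
    AddGroup.FG (Fx A B Γ) := by
  obtain ⟨v, pl⟩ := ex_pl
  obtain ⟨C, hC⟩ := P004Z.H.hx_le pl (hD_Qb hD)
  have : Northcott fun y : Fx A B Γ => 2 * hh v (y : Pt A B) + C :=
    ⟨fun b => (north pl hD hΓ ((b - C) / 2)).subset fun y hy => by
      rw [Set.mem_setOf_eq] at hy ⊢
      linarith⟩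
  refine AddCommGroup.fg_of_descent' (h := fun y : Fx A B Γ => 2 * hh v (y : Pt A B) + C)
    (C := |-2 * C|) (weak hD hΓ) (fun y => (pl.hx_nonneg _).trans (hC _)) fun x y => le_of_eq ?_
  congr 1
  have := P004Z.H.hh_par pl (hD_Qb hD) (x : Pt A B) y
  push_cast
  linarith

theorem finite (hD : 4 * A ^ 3 + 27 * B ^ 2 ≠ 0) (hΓ : IsOpen (Γ : Set GQ)) :
    Module.Finite ℤ (Fx A B Γ) := Module.Finite.iff_addGroup_fg.2 (fg hD hΓ)

end Vale.Agent.P014T.Wm
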