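import Vale.Agent.P014.Defs

/-!
# Heights, regulator and the `p`-part of the Birch and Swinnerton-Dyer formula over `ℚ`
-/

namespace Vale.Agent.P014T

open WeierstrassCurve Filter Vale.Agent.P014

/-- `h_x(P) = log max (|a|, b)` if `x(P) = a / b` in lowest terms with `b > 0`, and `h_x(O) = 0`. -/
noncomputable def naiveHeight (E : WeierstrassCurve ℚ) : E.toAffine.Point → ℝ
  | 0 => 0
  | .some x _ _ => Real.log (max (|x.num| : ℤ) (x.den : ℤ) : ℤ)

/-- `H(P) = lim 4 ^ (-n) h_x(2 ^ n P)`. -/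
noncomputable def canHeight (E : WeierstrassCurve ℚ) (P : E.toAffine.Point) : ℝ :=
  limUnder atTop fun n : ℕ => naiveHeight E (2 ^ n • P) / 4 ^ n

/-- `B(P, Q) = (H(P + Q) - H(P) - H(Q)) / 2`. -/
noncomputable def heightPairing (E : WeierstrassCurve ℚ) (P Q : E.toAffine.Point) : ℝ :=
  (canHeight E (P + Q) - canHeight E P - canHeight E Q) / 2

/-- The classes of `P 1, …, P r` form a `ℤ`-basis of `E(ℚ) / E(ℚ)_tors` (so `r` is the rank): every
point is, up to a torsion point, an integral combination of the `P i` in exactly one way. -/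
def IsBasisModTorsion (E : WeierstrassCurve ℚ) {r : ℕ} (P : Fin r → E.toAffine.Point) : Prop :=
  ∀ Q : E.toAffine.Point, ∃! n : Fin r → ℤ, IsOfFinAddOrder (Q - ∑ i, n i • P i)

/-- The regulator `det (B(P i, P j))` (it is `1` for `r = 0`). -/
noncomputable def regulator (E : WeierstrassCurve ℚ) {r : ℕ} (P : Fin r → E.toAffine.Point) : ℝ :=
  Matrix.det (Matrix.of fun i j => heightPairing E (P i) (P j))

/-- The `p`-part of the leading term formula of order `r`: the ratio of `L^(r)(E, 1) / r!` to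
`Ω · Reg · s · ∏ c_ℓ / (#E(ℚ)_tors)²` is a rational number which is a unit at `p`; here `s` is
the order of the Tate-Shafarevich group (or of its `p`-primary component). -/
def PPart (E : WeierstrassCurve ℚ) (L : ℂ → ℂ) (p : ℕ) {r : ℕ} (P : Fin r → E.toAffine.Point)
    (s : ℕ) : Prop :=
  ∃ ρ : ℚ, ρ ≠ 0 ∧ padicValRat p ρ = 0 ∧
    iteratedDeriv r L 1 / (r.factorial : ℂ) = (ρ : ℂ) * ((realPeriod E * regulator E P * (s : ℝ) *
      (tamagawaProduct E : ℝ) / (torsionOrder E : ℝ) ^ 2 : ℝ) : ℂ)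

end Vale.Agent.P014T
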