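import Vale.Agent.P014T.Ht.Vc
import Vale.Agent.P014T.Ht.Wmw
import Vale.Agent.P014T.Ht.Defs

/-! # P014T: the short model of a Weierstrass equation over `ℚ` -/

set_option autoImplicit false
set_option linter.all false

noncomputable section

namespace Vale.Agent.P014T.Sm

open WeierstrassCurve WeierstrassCurve.Affine Vale.Agent.P014T.Vc
open P004M.TE (Cv Pt pa ga Qb GQ pa_some ga_some)
open P004H.H666 (xp)

/-- `(x, y) ↦ (u² x + r, u³ y + u² s x + t)` maps `E` to `y² = x³ + a x + b` -/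
abbrev Md (E : WeierstrassCurve ℚ) (a b u r s t : ℚ) : Prop := Ch E ⟨0, 0, 0, a, b⟩ u r s t

variable {E : WeierstrassCurve ℚ} {a b u r s t : ℚ}

theorem md (E : WeierstrassCurve ℚ) (hu : u ≠ 0) : Md E (-(u ^ 4 * E.c₄) / 48) (-(u ^ 6 * E.c₆) / 864)
    u (u ^ 2 * E.b₂ / 12) (u * E.a₁ / 2) (u ^ 3 * E.a₃ / 2) := by
  refine ⟨hu, ?_, ?_, ?_, ?_, ?_⟩ <;> simp only [c₄, c₆, b₂, b₄, b₆] <;> ring

theorem Md.eq (h : Md E a b u r s t) : s = u * E.a₁ / 2 ∧ r = u ^ 2 * E.b₂ / 12 ∧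
    t = u ^ 3 * E.a₃ / 2 ∧ a = -(u ^ 4 * E.c₄) / 48 ∧ b = -(u ^ 6 * E.c₆) / 864 := by
  obtain ⟨-, h1, h2, h3, h4, h6⟩ := h
  obtain rfl : s = u * E.a₁ / 2 := by linear_combination -h1 / 2
  obtain rfl : t = u ^ 3 * E.a₃ / 2 := by linear_combination -h3 / 2
  obtain rfl : r = u ^ 2 * E.b₂ / 12 := by simp only [b₂]; linear_combination -h2 / 3
  have e : a = -(u ^ 4 * E.c₄) / 48 := by simp only [c₄, b₂, b₄] at h4 ⊢; linear_combination -h4
  refine ⟨rfl, rfl, rfl, e, ?_⟩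
  subst e
  simp only [c₄, c₆, b₂, b₄, b₆] at h6 ⊢
  linear_combination -h6

theorem Md.disc (h : Md E a b u r s t) : -16 * (4 * a ^ 3 + 27 * b ^ 2) = u ^ 12 * E.Δ := by
  obtain ⟨-, -, -, rfl, rfl⟩ := Md.eq h
  linear_combination -u ^ 12 / 1728 * E.c_relation

theorem Md.hD [E.IsElliptic] {A B : ℤ} (h : Md E A B u r s t) : 4 * A ^ 3 + 27 * B ^ 2 ≠ 0 := by
  intro e
  have : (4 * A ^ 3 + 27 * B ^ 2 : ℚ) = 0 := by exact_mod_cast e
  have k := Md.disc h
  rw [this, mul_zero] at k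
  exact mul_ne_zero (pow_ne_zero 12 h.ne) E.isUnit_Δ.ne_zero k.symm

/-- an integral equation: `A = -27 c₄`, `B = -54 c₆` -/
theorem md_int (W : WeierstrassCurve ℤ) : Md (W⁄ℚ) (-27 * W.c₄ : ℤ) (-54 * W.c₆ : ℤ) 6
    (3 * W.b₂ : ℤ) (3 * W.a₁ : ℤ) (108 * W.a₃ : ℤ) := by
  refine ⟨by norm_num, ?_, ?_, ?_, ?_, ?_⟩ <;>
    simp only [WeierstrassCurve.baseChange, map_a₁, map_a₂, map_a₃, map_a₄, map_a₆, c₄, c₆, b₂, b₄,
      b₆, eq_intCast] <;> push_cast <;> ring

theorem ex_int (h : E.IsIntegral ℤ) : ∃ A B r s t : ℤ, Md E A B 6 r s t := by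
  obtain ⟨W, rfl⟩ := h
  exact ⟨_, _, _, _, _, md_int W⟩

theorem ex_md (E : WeierstrassCurve ℚ) : ∃ (A B : ℤ) (u r s t : ℚ), Md E A B u r s t := by
  have c1 : (E.c₄.den : ℚ) ≠ 0 := by positivity
  have c2 : (E.c₆.den : ℚ) ≠ 0 := by positivity
  have := md E (u := 6 * E.c₄.den * E.c₆.den) (by positivity)
  rw [show -((6 * E.c₄.den * E.c₆.den : ℚ) ^ 4 * E.c₄) / 48 =
      (-27 * E.c₄.num * E.c₄.den ^ 3 * E.c₆.den ^ 4 : ℤ) by
        push_cast; rw [← Rat.mul_den_eq_num]; ring,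
    show -((6 * E.c₄.den * E.c₆.den : ℚ) ^ 6 * E.c₆) / 864 =
      (-54 * E.c₆.num * E.c₄.den ^ 6 * E.c₆.den ^ 5 : ℤ) by
        push_cast; rw [← Rat.mul_den_eq_num]; ring] at this
  exact ⟨_, _, _, _, _, _, this⟩

variable (h : Md E a b u r s t)

section F

variable (F : Type) [Field F] [Algebra ℚ F]

include h in
theorem Md.ch : Ch (E.map (algebraMap ℚ F)) (Cv F a b) (algebraMap ℚ F u) (algebraMap ℚ F r)
    (algebraMap ℚ F s) (algebraMap ℚ F t) := by
  have := Ch.map h (algebraMap ℚ F)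
  rwa [show WeierstrassCurve.map ⟨0, 0, 0, a, b⟩ (algebraMap ℚ F) = Cv F a b by
    ext <;> simp] at this

variable [DecidableEq F]

/-- **the isomorphism** -/
def iso : (E⁄F).toAffine.Point ≃+ (Cv F a b).Point :=
  AddEquiv.ofBijective (vm (RingHom.id F) (V := E⁄F) (Md.ch h F))
    ⟨vm_inj _, vm_surj _ Function.surjective_id⟩

/-- base change -/
def bc (E : WeierstrassCurve ℚ) : E.toAffine.Point →+ (E⁄F).toAffine.Point :=
  vm (algebraMap ℚ F) (Ch.refl _)

/-- rational points on the short model -/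
def upF : E.toAffine.Point →+ (Cv F a b).Point := vm (algebraMap ℚ F) (Md.ch h F)

variable {F}

theorem iso_some {x y : F} (n : (E⁄F).toAffine.Nonsingular x y) : ∃ n', iso h F (.some x y n) =
    .some (algebraMap ℚ F u ^ 2 * x + algebraMap ℚ F r) (algebraMap ℚ F u ^ 3 * y +
      algebraMap ℚ F u ^ 2 * algebraMap ℚ F s * x + algebraMap ℚ F t) n' := ⟨_, rfl⟩

theorem bc_some {x y : ℚ} (n : E.toAffine.Nonsingular x y) :
    ∃ n', bc F E (.some x y n) = .some (algebraMap ℚ F x) (algebraMap ℚ F y) n' :=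
  vm_ex (f := algebraMap ℚ F) (Ch.refl _)
    ((map_nonsingular E.toAffine (algebraMap ℚ F).injective x y).2 n) (x := x) (y := y) (by ring)
      (by ring) |>.elim fun _ e => ⟨_, e⟩

theorem bc_inj : Function.Injective (bc F E) := vm_inj _

theorem iso_bc (P : E.toAffine.Point) : iso h F (bc F E P) = upF h F P := by
  rcases P with _ | ⟨x, y, n⟩
  · rfl
  · obtain ⟨n', e⟩ := bc_some (F := F) n
    rw [e]
    rfl

theorem upF_inj : Function.Injective (upF h F) := vm_inj _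

theorem xp_upF {x y : ℚ} (n : E.toAffine.Nonsingular x y) :
    xp (upF h F (.some x y n)) = algebraMap ℚ F (u ^ 2 * x + r) := by
  rw [map_add, map_mul, map_pow]
  rfl

variable {F' : Type} [Field F'] [Algebra ℚ F'] [DecidableEq F'] {S : Type} [CommRing S] [Algebra ℚ S]
  [Algebra S F] [IsScalarTower ℚ S F] [Algebra S F'] [IsScalarTower ℚ S F']

/-- **naturality** -/
theorem iso_map' (φ : F →ₐ[S] F') (ψ : F →ₐ[ℚ] F') (e : ∀ x, φ x = ψ x)
    (P : (E⁄F).toAffine.Point) : iso h F' (Point.map (W' := E) φ P) = pa ψ (iso h F P) := by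
  rcases P with _ | ⟨x, y, n⟩
  · exact (map_zero (pa ψ)).symm
  · obtain ⟨n', e'⟩ := iso_some h n
    rw [e', pa_some]
    refine (iso_some h _).choose_spec.trans ?_
    congr 1 <;> simp only [map_add, map_mul, map_pow, AlgHom.commutes, e]

theorem iso_map (φ : F →ₐ[ℚ] F') (P : (E⁄F).toAffine.Point) :
    iso h F' (Point.map (W' := E) φ P) = pa φ (iso h F P) := iso_map' h φ φ (fun _ => rfl) P

theorem map_bc (φ : F →ₐ[S] F') (P : E.toAffine.Point) :
    Point.map (W' := E) φ (bc F E P) = bc F' E P := by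
  rcases P with _ | ⟨x, y, n⟩
  · rfl
  · obtain ⟨_, e⟩ := bc_some (F := F) n
    obtain ⟨_, e'⟩ := bc_some (F := F') n
    rw [e, e', Point.map_some]
    congr 1 <;> exact (φ.restrictScalars ℚ).commutes _

theorem pa_upF (φ : F →ₐ[ℚ] F') (P : E.toAffine.Point) : pa φ (upF h F P) = upF h F' P := by
  rw [← iso_bc, ← iso_map, map_bc, iso_bc]

end F

open scoped Classical

theorem iso_act (g : GQ) (P : P014.Pbar E) : iso h Qb (P014.act E g P) = ga g (iso h Qb P) :=
  iso_map h _ P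

/-- `E(ℚ) → E(ℚ̄)` on the short model -/
abbrev up : E.toAffine.Point →+ (Cv Qb a b).Point := upF h Qb

theorem ga_up (g : GQ) (P : E.toAffine.Point) : ga g (up h P) = up h P := pa_upF h _ P

theorem ex_up {y : (Cv Qb a b).Point} (e : ∀ g, ga g y = y) : ∃ P, up h P = y := by
  rcases y with _ | ⟨X, Y, n⟩
  · exact ⟨0, rfl⟩
  · have : Algebra.IsAlgebraic ℚ Qb := AlgebraicClosure.isAlgebraic ℚ
    have : IsAlgClosure ℚ Qb := ⟨inferInstance, inferInstance⟩
    have : IsGalois ℚ Qb := IsAlgClosure.isGalois ℚ Qb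
    have k := fun g => Point.some.inj ((ga_some g n).symm.trans (e g))
    obtain ⟨X, rfl⟩ := (InfiniteGalois.mem_range_algebraMap_iff_fixed X).2 fun g => (k g).1
    obtain ⟨Y, rfl⟩ := (InfiniteGalois.mem_range_algebraMap_iff_fixed Y).2 fun g => (k g).2
    have := h.ne
    refine ⟨_, (vm_ex (Md.ch h Qb) n (x := (X - r) / u ^ 2) (y := (Y - s * (X - r) - t) / u ^ 3)
      ?_ ?_).choose_spec⟩ <;> simp only [← map_pow, ← map_mul, ← map_add] <;> congr 1 <;>
        field_simp <;> ring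

theorem act_bc (g : GQ) (P : E.toAffine.Point) : P014.act E g (bc Qb E P) = bc Qb E P := map_bc _ P

theorem ex_bc {y : P014.Pbar E} (e : ∀ g, P014.act E g y = y) : ∃ P, bc Qb E P = y := by
  have h := md E one_ne_zero
  obtain ⟨P, k⟩ := ex_up h (y := iso h Qb y) fun g => by rw [← iso_act, e]
  exact ⟨P, (iso h Qb).injective (by rw [iso_bc, k])⟩

variable {A B : ℤ}

theorem range_up (h : Md E A B u r s t) : (up h).range = Wm.Fx A B ⊤ :=
  AddSubgroup.ext fun _ => ⟨fun ⟨P, e⟩ g _ => e ▸ ga_up h g P, fun k => ex_up h fun g => k g trivial⟩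

/-- `E(ℚ)` is the group of fixed points -/
def eqv (h : Md E A B u r s t) : E.toAffine.Point ≃+ Wm.Fx A B ⊤ :=
  (AddMonoidHom.ofInjective (upF_inj h)).trans (AddEquiv.addSubgroupCongr (range_up h))

theorem coe_eqv (h : Md E A B u r s t) (P : E.toAffine.Point) : (eqv h P : Pt A B) = up h P := rfl

/-- **the theorem of Mordell** -/
theorem finite (E : WeierstrassCurve ℚ) [E.IsElliptic] : Module.Finite ℤ E.toAffine.Point := by
  obtain ⟨A, B, u, r, s, t, h⟩ := ex_md E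
  have := Wm.finite (Γ := ⊤) (Md.hD h) isOpen_univ
  exact Module.Finite.equiv (eqv h).symm.toIntLinearEquiv

theorem fin_tors (E : WeierstrassCurve ℚ) [E.IsElliptic] :
    Finite (AddCommGroup.torsion E.toAffine.Point) := by
  have := finite E
  have : Module.Finite ℤ (AddCommGroup.torsion E.toAffine.Point) :=
    Module.Finite.of_injective (AddCommGroup.torsion E.toAffine.Point).subtype.toIntLinearMap
      Subtype.val_injective
  exact Module.finite_of_fg_torsion _ (AddMonoid.isTorsion_iff_isTorsion_int.1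
    (AddCommMonoid.addTorsion.isTorsion (G := E.toAffine.Point)))

theorem tors_pos (E : WeierstrassCurve ℚ) [E.IsElliptic] : 0 < P014.torsionOrder E := by
  have := fin_tors E
  exact Nat.card_pos

end Vale.Agent.P014T.Sm
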