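import Mathlib

/-! # P014T: changes of variables and of fields on points (Mathlib only) -/

set_option autoImplicit false
set_option linter.all false

noncomputable section

namespace Vale.Agent.P014T.Vc

open WeierstrassCurve WeierstrassCurve.Affine

section

variable {F : Type} [Field F] {V W : WeierstrassCurve F} {u r s t : F}

/-- `(x, y) ↦ (u² x + r, u³ y + u² s x + t)` maps `V` to `W` -/
structure Ch (V W : WeierstrassCurve F) (u r s t : F) : Prop where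
  ne : u ≠ 0
  a1 : u * V.a₁ = W.a₁ + 2 * s
  a2 : u ^ 2 * V.a₂ = W.a₂ - s * W.a₁ + 3 * r - s ^ 2
  a3 : u ^ 3 * V.a₃ = W.a₃ + r * W.a₁ + 2 * t
  a4 : u ^ 4 * V.a₄ = W.a₄ - s * W.a₃ + 2 * r * W.a₂ - (t + r * s) * W.a₁ + 3 * r ^ 2 - 2 * s * t
  a6 : u ^ 6 * V.a₆ = W.a₆ + r * W.a₄ + r ^ 2 * W.a₂ + r ^ 3 - t * W.a₃ - t ^ 2 - r * t * W.a₁

theorem ch_of (C : VariableChange F) (W : WeierstrassCurve F) : Ch (C • W) W C.u C.r C.s C.t := by
  have := C.u.ne_zero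
  refine ⟨this, ?_, ?_, ?_, ?_, ?_⟩ <;>
    simp only [variableChange_a₁, variableChange_a₂, variableChange_a₃, variableChange_a₄,
      variableChange_a₆, Units.val_inv_eq_inv_val] <;> field_simp

theorem Ch.refl (W : WeierstrassCurve F) : Ch W W 1 0 0 0 := by
  refine ⟨one_ne_zero, ?_, ?_, ?_, ?_, ?_⟩ <;> ring

theorem Ch.map {F' : Type} [Field F'] (h : Ch V W u r s t) (f : F →+* F') :
    Ch (V.map f) (W.map f) (f u) (f r) (f s) (f t) :=
  ⟨(map_ne_zero f).2 h.ne, by simpa [map_ofNat] using congrArg f h.a1,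
    by simpa [map_ofNat] using congrArg f h.a2, by simpa [map_ofNat] using congrArg f h.a3,
    by simpa [map_ofNat] using congrArg f h.a4, by simpa [map_ofNat] using congrArg f h.a6⟩

namespace Ch

variable (h : Ch V W u r s t)
include h

theorem eqn (x y : F) :
    W.toAffine.Equation (u ^ 2 * x + r) (u ^ 3 * y + u ^ 2 * s * x + t) ↔ V.toAffine.Equation x y := by
  rw [equation_iff', equation_iff', ← mul_eq_zero_iff_left (pow_ne_zero 6 h.ne)
    (b := y ^ 2 + _ + _ - _)]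
  refine Eq.congr_left ?_
  linear_combination -u ^ 5 * x * y * h.a1 + u ^ 4 * x ^ 2 * h.a2 - u ^ 3 * y * h.a3 +
    u ^ 2 * x * h.a4 + h.a6

theorem negY (x y : F) : W.toAffine.negY (u ^ 2 * x + r) (u ^ 3 * y + u ^ 2 * s * x + t) =
    u ^ 3 * V.toAffine.negY x y + u ^ 2 * s * x + t := by
  simp only [Affine.negY]
  linear_combination u ^ 2 * x * h.a1 + h.a3

theorem dX (x y : F) : W.a₁ * (u ^ 3 * y + u ^ 2 * s * x + t) - (3 * (u ^ 2 * x + r) ^ 2 +
    2 * W.a₂ * (u ^ 2 * x + r) + W.a₄) = u ^ 4 * (V.a₁ * y - (3 * x ^ 2 + 2 * V.a₂ * x + V.a₄)) -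
      s * (u ^ 3 * (2 * y + V.a₁ * x + V.a₃)) := by
  linear_combination (s * u ^ 2 * x - u ^ 3 * y) * h.a1 + 2 * u ^ 2 * x * h.a2 + s * h.a3 + h.a4

theorem dY (x y : F) : 2 * (u ^ 3 * y + u ^ 2 * s * x + t) + W.a₁ * (u ^ 2 * x + r) + W.a₃ =
    u ^ 3 * (2 * y + V.a₁ * x + V.a₃) := by
  linear_combination -u ^ 2 * x * h.a1 - h.a3

theorem nsg (x y : F) : W.toAffine.Nonsingular (u ^ 2 * x + r) (u ^ 3 * y + u ^ 2 * s * x + t) ↔
    V.toAffine.Nonsingular x y := by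
  rw [nonsingular_iff', nonsingular_iff', h.eqn, h.dX, h.dY]
  refine and_congr_right fun _ => ?_
  by_cases e : 2 * y + V.a₁ * x + V.a₃ = 0 <;> simp [e, h.ne]

theorem xinj {x x' : F} : u ^ 2 * x + r = u ^ 2 * x' + r ↔ x = x' := by simp [h.ne]

theorem cond {x₁ x₂ y₁ y₂ : F} : (u ^ 2 * x₁ + r = u ^ 2 * x₂ + r ∧ u ^ 3 * y₁ + u ^ 2 * s * x₁ + t =
    W.toAffine.negY (u ^ 2 * x₂ + r) (u ^ 3 * y₂ + u ^ 2 * s * x₂ + t)) ↔
      x₁ = x₂ ∧ y₁ = V.toAffine.negY x₂ y₂ := by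
  rw [h.negY, h.xinj]
  refine and_congr_right ?_
  rintro rfl
  simp [h.ne]

theorem addX (x₁ x₂ l : F) : W.toAffine.addX (u ^ 2 * x₁ + r) (u ^ 2 * x₂ + r) (u * l + s) =
    u ^ 2 * V.toAffine.addX x₁ x₂ l + r := by
  simp only [Affine.addX]
  linear_combination -u * l * h.a1 + h.a2

theorem addY (x₁ x₂ y₁ l : F) : W.toAffine.addY (u ^ 2 * x₁ + r) (u ^ 2 * x₂ + r)
    (u ^ 3 * y₁ + u ^ 2 * s * x₁ + t) (u * l + s) =
      u ^ 3 * V.toAffine.addY x₁ x₂ y₁ l + u ^ 2 * s * V.toAffine.addX x₁ x₂ l + t := by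
  rw [Affine.addY, Affine.addY, ← h.negY, Affine.negAddY, Affine.negAddY, h.addX]
  congr 1
  ring

theorem slope [DecidableEq F] {x₁ x₂ y₁ y₂ : F} (n : ¬ (x₁ = x₂ ∧ y₁ = V.toAffine.negY x₂ y₂))
    (h₁ : V.toAffine.Equation x₁ y₁) (h₂ : V.toAffine.Equation x₂ y₂) :
    W.toAffine.slope (u ^ 2 * x₁ + r) (u ^ 2 * x₂ + r) (u ^ 3 * y₁ + u ^ 2 * s * x₁ + t)
      (u ^ 3 * y₂ + u ^ 2 * s * x₂ + t) = u * V.toAffine.slope x₁ x₂ y₁ y₂ + s := by
  have u0 := h.ne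
  by_cases e : x₁ = x₂
  · have n1 : y₁ ≠ V.toAffine.negY x₂ y₂ := fun a => n ⟨e, a⟩
    have n2 : y₁ - V.toAffine.negY x₁ y₁ ≠ 0 := sub_ne_zero.2 fun a =>
      n1 (a.trans (by rw [e, Y_eq_of_Y_ne h₁ h₂ e n1]))
    rw [slope_of_Y_ne (h.xinj.2 e) fun a => n (h.cond.1 ⟨h.xinj.2 e, a⟩), slope_of_Y_ne e n1, h.negY,
      div_eq_iff (by
        rw [show ∀ a b c d : F, a + c + d - (b + c + d) = a - b by intros; ring, ← mul_sub]
        exact mul_ne_zero (pow_ne_zero 3 u0) n2)]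
    have k := div_mul_cancel₀ (3 * x₁ ^ 2 + 2 * V.a₂ * x₁ + V.a₄ - V.a₁ * y₁) n2
    simp only [Affine.negY] at k ⊢
    linear_combination -h.dX x₁ y₁ - u ^ 4 * k
  · rw [slope_of_X_ne (mt h.xinj.1 e), slope_of_X_ne e, div_eq_iff (sub_ne_zero.2 (mt h.xinj.1 e))]
    linear_combination -u ^ 3 * div_mul_cancel₀ (y₁ - y₂) (sub_ne_zero.2 e)

end Ch

end

variable {F F' : Type} [Field F] [Field F'] [DecidableEq F] [DecidableEq F'] {f : F →+* F'}
  {V : WeierstrassCurve F} {W : WeierstrassCurve F'} {u r s t : F'}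

theorem Ch.ns (h : Ch (V.map f) W u r s t) {x y : F} :
    W.toAffine.Nonsingular (u ^ 2 * f x + r) (u ^ 3 * f y + u ^ 2 * s * f x + t) ↔
      V.toAffine.Nonsingular x y := (h.nsg _ _).trans (map_nonsingular V.toAffine f.injective x y)

/-- the map of points -/
def vm (f : F →+* F') (h : Ch (V.map f) W u r s t) : V.toAffine.Point →+ W.toAffine.Point where
  toFun P := match P with
    | 0 => 0
    | .some _ _ n => .some _ _ (h.ns.2 n)
  map_zero' := rfl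
  map_add' := by
    rintro (_ | ⟨x₁, y₁, h₁⟩) (_ | ⟨x₂, y₂, h₂⟩)
    any_goals rfl
    have i : (f x₁ = f x₂ ∧ f y₁ = (V.map f).toAffine.negY (f x₂) (f y₂)) ↔
        x₁ = x₂ ∧ y₁ = V.toAffine.negY x₂ y₂ := by
      rw [show (V.map f).toAffine.negY (f x₂) (f y₂) = _ from map_negY f x₂ y₂, f.injective.eq_iff,
        f.injective.eq_iff]
    by_cases n : x₁ = x₂ ∧ y₁ = V.toAffine.negY x₂ y₂
    · rw [Point.add_of_Y_eq n.1 n.2]
      exact (Point.add_of_Y_eq (h.cond.2 (i.2 n)).1 (h.cond.2 (i.2 n)).2).symm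
    · rw [Point.add_some n]
      refine .trans ?_ (Point.add_some (mt (h.cond.trans i).1 n)).symm
      have e := h.slope (mt i.1 n) (h₁.1.map f) (h₂.1.map f)
      rw [show (V.map f).toAffine.slope (f x₁) (f x₂) (f y₁) (f y₂) = _ from
        map_slope f x₁ x₂ y₁ y₂] at e
      show Point.some _ _ _ = _
      congr 1
      · rw [e, h.addX, ← map_addX]
      · rw [e, h.addY, ← map_addX, ← map_addY]

variable (h : Ch (V.map f) W u r s t)

theorem vm_some {x y : F} (n : V.toAffine.Nonsingular x y) :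
    vm f h (.some x y n) = .some _ _ (h.ns.2 n) := rfl

theorem vm_inj : Function.Injective (vm f h) := (injective_iff_map_eq_zero _).2 (by
  rintro (_ | ⟨x, y, n⟩) e
  · rfl
  · exact absurd e (Point.some_ne_zero _))

theorem vm_ex {X Y : F'} (n : W.toAffine.Nonsingular X Y) {x y : F} (e : X = u ^ 2 * f x + r)
    (e' : Y = u ^ 3 * f y + u ^ 2 * s * f x + t) : ∃ n', vm f h (.some x y n') = .some X Y n := by
  subst e e'
  exact ⟨h.ns.1 n, rfl⟩

theorem vm_surj (hf : Function.Surjective f) : Function.Surjective (vm f h) := by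
  rintro (_ | ⟨X, Y, n⟩)
  · exact ⟨0, rfl⟩
  · have := h.ne
    obtain ⟨x, e⟩ := hf ((X - r) / u ^ 2)
    obtain ⟨y, e'⟩ := hf ((Y - s * (X - r) - t) / u ^ 3)
    exact ⟨_, (vm_ex h n (x := x) (y := y) (by rw [e]; field_simp; ring)
      (by rw [e, e']; field_simp; ring)).choose_spec⟩

end Vale.Agent.P014T.Vc
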