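import Vale.Agent.P014T.Ht.Can
import Vale.Agent.P014T.Ig.Hom
import Vale.Agent.P004K.Gm.Jh

/-! # P014T: heights under isogenies and twists -/

set_option autoImplicit false
set_option linter.all false

open Real
open scoped Classical ComplexConjugate

noncomputable section

namespace Vale.Agent.P014T.Hi

open P027H P004K P004K.Gm P014T.Ig P014T.Ig.Hm P014T.Cn P014T.Vc
open P027M.M (io)
open P004Z.H (Pl hh hx hh_par ex_bil mn_zero)
open P004M.TE (Cv Pt ga pa Qb GQ)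
open P004H.H666 (xp)

variable {v : ℕ → AbsoluteValue Qb ℝ} (pl : Pl v)

section Q

variable {a b a' b' : ℚ} (hD : 16 * (4 * algebraMap ℚ Qb a ^ 3 + 27 * algebraMap ℚ Qb b ^ 2) ≠ 0)
  (hD' : 16 * (4 * algebraMap ℚ Qb a' ^ 3 + 27 * algebraMap ℚ Qb b' ^ 2) ≠ 0)
include pl

theorem hx_add (x y : Qb) : hx v (x + y) ≤ log 2 + hx v x + hx v y := by
  have := pl.hx_step x (-1) y
  rw [show hx v (-1) = 0 by simpa using hx_rat pl (-1)] at this
  simpa using this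

theorem hx_mul (x y : Qb) : hx v (x * y) ≤ log 2 + hx v (-x) + hx v y := by
  have := pl.hx_step 0 (-x) y
  rw [show hx v 0 = 0 by simpa using hx_rat pl 0] at this
  simpa [add_assoc] using this

theorem hx_sum {ι : Type} (s : Finset ι) (x : ι → Qb) :
    hx v (∑ i ∈ s, x i) ≤ ∑ i ∈ s, (log 2 + hx v (x i)) := by
  induction s using Finset.induction_on with
  | empty => simpa using (hx_rat pl 0).le
  | insert i s h ih =>
    rw [Finset.sum_insert h, Finset.sum_insert h]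
    linarith [hx_add pl (x i) (∑ i ∈ s, x i)]

include hD

theorem hh_add {T : (Cv Qb a b).Point} (h : IsOfFinAddOrder T) (P : (Cv Qb a b).Point) :
    hh v (P + T) = hh v P := by
  obtain ⟨β, h1, -⟩ := ex_bil _ (hh_par pl hD)
  have := h1 P T
  rw [(isOfFinAddOrder_iff_eq_zero _).1 ((β P).isOfFinAddOrder h), (hh_zero pl hD).2 h] at this
  linarith

include hD'

/-- an inequality of naive heights gives an inequality of canonical heights -/
theorem hh_le (φ : (Cv Qb a' b').Point →+ (Cv Qb a b).Point) {n C : ℝ} (n0 : 0 ≤ n)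
    (h : ∀ y, φ y ≠ 0 → hx v (xp (φ y)) ≤ n * (2 * hh v y) + C) (y : (Cv Qb a' b').Point) :
    hh v (φ y) ≤ n * hh v y := by
  obtain ⟨C', h'⟩ := hx_bd pl hD
  have k (y) : 2 * (hh v (φ y) - n * hh v y) ≤ |C + C'| := by
    by_cases e : φ y = 0
    · rw [e, (hh_zero pl hD).2 IsOfFinAddOrder.zero]
      linarith [mul_nonneg n0 (hh_nonneg pl hD' y), abs_nonneg (C + C')]
    · linarith [h y e, (abs_le.1 (h' (φ y))).1, le_abs_self (C + C')]
  by_contra c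
  obtain ⟨m, hm⟩ := exists_nat_gt (|C + C'| / (hh v (φ y) - n * hh v y))
  have := k (m • y)
  rw [map_nsmul, hh_nsmul pl hD, hh_nsmul pl hD'] at this
  rw [div_lt_iff₀ (by linarith)] at hm
  have h1 : (m : ℝ) ≤ m ^ 2 := by exact_mod_cast Nat.le_self_pow two_ne_zero m
  nlinarith [abs_nonneg (C + C')]

/-- an isomorphism `x ↦ w x + r` keeps the height -/
theorem hh_lin (φ : (Cv Qb a' b').Point ≃+ (Cv Qb a b).Point) {w r : Qb} (w0 : w ≠ 0)
    (h : ∀ y, y ≠ 0 → xp (φ y) = w * xp y + r) (y : (Cv Qb a' b').Point) : hh v (φ y) = hh v y := by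
  obtain ⟨C, k⟩ := hx_bd pl hD
  obtain ⟨C', k'⟩ := hx_bd pl hD'
  have h1 := hh_le pl hD hD' φ zero_le_one (C := C' + (log 2 + (log 2 + hx v (-w)) + hx v r))
    (fun y e => by
      rw [AddMonoidHom.coe_coe, h y (mt φ.map_eq_zero_iff.2 e)]
      linarith [hx_add pl (w * xp y) r, hx_mul pl w (xp y), (abs_le.1 (k' y)).2]) y
  have h2 := hh_le pl hD' hD φ.symm zero_le_one
    (C := C + (log 2 + hx v (-w⁻¹) + (log 2 + hx v (-r)))) (fun y e => by
      have := h _ e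
      rw [AddMonoidHom.coe_coe, φ.apply_symm_apply] at this
      rw [AddMonoidHom.coe_coe, show xp (φ.symm y) = w⁻¹ * (xp y + -r) by rw [this]; field_simp; ring]
      linarith [hx_add pl (xp y) (-r), hx_mul pl w⁻¹ (xp y + -r), (abs_le.1 (k y)).2]) (φ y)
  simp only [AddMonoidHom.coe_coe, φ.symm_apply_apply, one_mul] at h1 h2
  exact le_antisymm h1 h2

end Q

/-! ## isogenies -/

variable {Λ Λ' : Submodule ℤ ℂ} {A B A' B' : ℤ} {c : ℚ} {φ : Pt A' B' →+ Pt A B}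

theorem hD_of (h : IsLat Λ) (h2 : g2 Λ = -4 * A) (h3 : g3 Λ = -4 * B) : 4 * A ^ 3 + 27 * B ^ 2 ≠ 0 :=
  fun e => disc_ne h (by
    have : (4 * A ^ 3 + 27 * B ^ 2 : ℂ) = 0 := by exact_mod_cast e
    rw [h2, h3]
    linear_combination -16 * this)

theorem un_zero : Un Λ 0 (0 : Pt A B) := ⟨fun _ => rfl, fun a => absurd (zero_mem _) a⟩

theorem un_mem {z : ℂ} (u : Un Λ z (0 : Pt A B)) : z ∈ Λ := by_contra fun a =>
  let ⟨_, _, _, e, _⟩ := u.2 a
  WeierstrassCurve.Affine.Point.some_ne_zero _ e.symm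

theorem un_xp {z : ℂ} {y : Pt A B} (u : Un Λ z y) (a : z ∉ Λ) : io (xp y) = wp Λ z := by
  obtain ⟨_, _, _, rfl, e, -⟩ := u.2 a
  exact e

theorem le_of (i : Iso c Λ' Λ φ) (z : ℂ) (a : z ∈ Λ') : c * z ∈ Λ :=
  un_mem (A := A) (B := B) (map_zero φ ▸ i z 0 ⟨fun _ => rfl, fun b => absurd a b⟩)

variable (h : IsLat Λ) (h2 : g2 Λ = -4 * A) (h3 : g3 Λ = -4 * B)
include h h2 h3

theorem ex_tors {m : ℕ} (hm : 0 < m) {z : ℂ} (a : m * z ∈ Λ) :
    ∃ y : Pt A B, Un Λ z y ∧ m • y = 0 := by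
  obtain ⟨y, u⟩ := ex_un h h2 h3 hm (z := z) fun σ ψ _ t => by
    have := tr_hom t t (c := m) (Nat.cast_ne_zero.2 hm.ne')
      (fun z b => by simpa using nsmul_mem b m) z
    rw [Rat.cast_natCast] at this
    exact mem_of_eq (sub_mem (sub_mem ((t.mem _).2 a) this) a) (by ring)
  exact ⟨y, u, (un_smul h h2 h3 u m).1 a⟩

theorem un_sub {z w : ℂ} {x y : Pt A B} (a : Un Λ z x) (b : Un Λ w y) : Un Λ (z - w) (x - y) := by
  obtain ⟨ex, -, -, k⟩ := Hg.un_iff h h2 h3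
  rw [k] at a b ⊢
  rw [map_sub, map_sub, a, b]

variable (h' : IsLat Λ') (h2' : g2 Λ' = -4 * A') (h3' : g3 Λ' = -4 * B') (hc : c ≠ 0)
  (i : Iso c Λ' Λ φ)
include h' h2' h3' hc i

/-- representatives of the kernel -/
theorem ex_ker : ∃ (ι : Type) (_ : Fintype ι) (r : ι → ℂ) (T : ι → Pt A' B'),
    Fintype.card ι = dg c Λ' Λ ∧ Reps r Λ' (scl (c : ℂ)⁻¹ Λ) ∧
      ∀ j, Un Λ' (r j) (T j) ∧ IsOfFinAddOrder (T j) := by
  have c0 : (c : ℂ) ≠ 0 := Rat.cast_ne_zero.2 hc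
  have le : Λ' ≤ scl (c : ℂ)⁻¹ Λ := fun z a => (mem_inv c0).2 (le_of i z a)
  have k := (hom_inv c0 Λ).symm.isLat h
  obtain ⟨m, m0, hm⟩ := exists_exp h' k le
  let ι := (scl (c : ℂ)⁻¹ Λ).toAddSubgroup ⧸
    Λ'.toAddSubgroup.addSubgroupOf (scl (c : ℂ)⁻¹ Λ).toAddSubgroup
  have : Finite ι := Nat.finite_of_card_ne_zero (idx_pos h' k le).ne'
  choose T hT using fun j : ι => ex_tors h' h2' h3' m0 (hm _ j.out.2)
  have := Fintype.ofFinite ι
  refine ⟨ι, this, fun j => j.out, T, Nat.card_eq_fintype_card.symm, ⟨le, fun j => j.out.2,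
    fun z a => ⟨QuotientAddGroup.mk ⟨z, a⟩, ?_⟩, fun j j' e => ?_⟩, fun j => ⟨(hT j).1,
      isOfFinAddOrder_iff_nsmul_eq_zero.2 ⟨m, m0, (hT j).2⟩⟩⟩
  · exact mem_of_eq (QuotientAddGroup.eq.1 (QuotientAddGroup.out_eq' (QuotientAddGroup.mk ⟨z, a⟩ : ι)))
      (neg_add_eq_sub _ _).symm
  · rw [← j.out_eq', ← j'.out_eq', eq_comm, QuotientAddGroup.eq]
    exact mem_of_eq e (neg_add_eq_sub _ _)

/-- the degree is the order of the kernel -/
theorem card_ker : Nat.card φ.ker = dg c Λ' Λ := by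
  have c0 : (c : ℂ) ≠ 0 := Rat.cast_ne_zero.2 hc
  obtain ⟨ι, _, r, T, e, R, k⟩ := ex_ker h h2 h3 h' h2' h3' hc i
  obtain ⟨u1, u2, -⟩ := un A' B' Λ' h' h2' h3'
  rw [← e, ← Nat.card_eq_fintype_card]
  refine (Nat.card_eq_of_bijective (fun j => (⟨T j, (i _ _ (k j).1).1 ((mem_inv c0).1 (R.mem j))⟩ :
    φ.ker)) ⟨fun j j' a => R.inj _ _ ((u2 _ _ _ _ (k j).1 (k j').1).2.1 (congrArg Subtype.val a)),
      fun y => ?_⟩).symm
  obtain ⟨z, u⟩ := u1 y
  obtain ⟨j, a⟩ := R.ex z ((mem_inv c0).2 (un_mem (A := A) (B := B) (y.2 ▸ i _ _ u)))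
  exact ⟨j, Subtype.ext ((u2 _ _ _ _ u (k j).1).2.2 a).symm⟩

include pl

theorem iso_le (y : Pt A' B') : hh v (φ y) ≤ dg c Λ' Λ * hh v y := by
  have c0 : (c : ℂ) ≠ 0 := Rat.cast_ne_zero.2 hc
  have hD := Wm.hD_Qb (hD_of h h2 h3)
  have hD' := Wm.hD_Qb (hD_of h' h2' h3')
  obtain ⟨ι, _, r, T, e, R, k⟩ := ex_ker h h2 h3 h' h2' h3' hc i
  obtain ⟨C, hC⟩ := hx_bd pl hD'
  let κ : Qb := Function.invFun io (-∑ j, wp Λ' (r j))
  refine hh_le pl hD hD' φ (Nat.cast_nonneg _) (C := log 2 + hx v (-((c : Qb) ^ 2)⁻¹) +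
    (log 2 + dg c Λ' Λ * (log 2 + C) + hx v κ)) (fun y n => ?_) y
  obtain ⟨z, u⟩ := (un A' B' Λ' h' h2' h3').1 y
  have z0 : c * z ∉ Λ := fun a => n ((i _ _ u).1 a)
  have e1 : io ((c : Qb) ^ 2 * xp (φ y) - ∑ j, xp (y - T j)) = -∑ j, wp Λ' (r j) := by
    rw [map_sub, map_mul, map_sum, un_xp (i _ _ u) z0, (hom_inv c0 Λ).wp,
      R.wp h' ((hom_inv c0 Λ).symm.isLat h), Finset.sum_sub_distrib,
      Finset.sum_congr rfl fun j _ => un_xp (un_sub h' h2' h3' u (k j).1) fun a => z0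
        ((mem_inv c0).1 (mem_of_eq (add_mem (R.le a) (R.mem j)) (sub_add_cancel _ _).symm)),
      map_pow, map_ratCast]
    field_simp
    ring
  have e2 : κ = _ := (congrArg _ e1.symm).trans
    (Function.leftInverse_invFun (io : Qb →+* ℂ).injective _)
  have c1 : (c : Qb) ≠ 0 := Rat.cast_ne_zero.2 hc
  have h4 := (hx_sum pl Finset.univ fun j => xp (y - T j)).trans (Finset.sum_le_card_nsmul _ _
    (log 2 + C + 2 * hh v y) fun j _ => by
      have := (abs_le.1 (hC (y - T j))).2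
      rw [sub_eq_add_neg y, hh_add pl hD' (k j).2.neg, ← sub_eq_add_neg] at this
      linarith)
  rw [Finset.card_univ, e, nsmul_eq_mul] at h4
  rw [show xp (φ y) = ((c : Qb) ^ 2)⁻¹ * (∑ j, xp (y - T j) + κ) by rw [e2]; field_simp; ring]
  linarith [hx_mul pl ((c : Qb) ^ 2)⁻¹ (∑ j, xp (y - T j) + κ), hx_add pl (∑ j, xp (y - T j)) κ]

/-- **the height is multiplied by the degree** -/
theorem hiso (y : Pt A' B') : hh v (φ y) = dg c Λ' Λ * hh v y := by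
  have c0 : (c : ℂ) ≠ 0 := Rat.cast_ne_zero.2 hc
  obtain ⟨m, m0, hm⟩ := ex_inv h h' c0 (le_of i)
  have d0 : (m / c : ℚ) ≠ 0 := div_ne_zero (Nat.cast_ne_zero.2 m0.ne') hc
  have hm' : ∀ z ∈ Λ, ((m / c : ℚ) : ℂ) * z ∈ Λ' := fun z a => by simpa using hm z a
  obtain ⟨ψ, j, -⟩ := hom h' h2' h3' h h2 h3 d0 hm'
  have h4 := iso_le pl h' h2' h3' h h2 h3 d0 j (φ y)
  have p := ar_pos h
  have p' := ar_pos h'
  have c1 : (c : ℝ) ≠ 0 := Rat.cast_ne_zero.2 hc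
  have m1 : (0 : ℝ) < m := Nat.cast_pos.2 m0
  rw [iso_comp h' h2' h3' i j (div_mul_cancel₀ _ hc), hh_nsmul pl (Wm.hD_Qb (hD_of h' h2' h3')),
    dg_eq h h' (Rat.cast_ne_zero.2 d0) hm', Complex.normSq_ratCast] at h4
  refine le_antisymm (iso_le pl h h2 h3 h' h2' h3' hc i y) ?_
  rw [dg_eq h' h c0 (le_of i), Complex.normSq_ratCast]
  refine le_of_mul_le_mul_left (a := ar Λ / ar Λ' * (m / c * (m / c))) ?_
    (mul_pos (div_pos p p') (mul_self_pos.2 (div_ne_zero m1.ne' c1)))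
  push_cast at h4
  refine le_trans (le_of_eq ?_) h4
  field_simp

theorem hiso_ar (y : Pt A' B') : ar Λ * hh v (φ y) = c ^ 2 * ar Λ' * hh v y := by
  have p := (ar_pos h).ne'
  rw [hiso pl h h2 h3 h' h2' h3' hc i, dg_eq h' h (Rat.cast_ne_zero.2 hc) (le_of i),
    Complex.normSq_ratCast]
  field_simp

omit pl h2 h3 h' h2' h3' hc i in
theorem ar_cov {u w : ℂ} (e : ∀ z, z ∈ Λ ↔ ∃ m n : ℤ, z = m * u + n * w) :
    ar Λ = |(conj u * w).im| := by
  obtain ⟨L, rfl⟩ := h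
  let L' : PeriodPair := ⟨u, w, linearIndependent_of_top_le_span_of_card_eq_finrank (by
    rw [← IsZLattice.span_top (K := ℝ) (L := L.lattice), Submodule.span_le]
    intro z a
    obtain ⟨m, n, rfl⟩ := (e z).1 a
    exact (Submodule.mem_span_range_iff_exists_fun ℝ).2 ⟨![m, n], by simp⟩) (by simp)⟩
  rw [show L.lattice = L'.lattice from Submodule.ext fun z => by
    simp only [e, PeriodPair.mem_lattice, eq_comm, L'], ar_eq, MeasureTheory.Measure.real,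
    ZSpan.fundamentalDomain_ae_parallelepiped _ _ |> MeasureTheory.measure_congr,
    ← Complex.toBasis_orthonormalBasisOneI, OrthonormalBasis.coe_toBasis,
    OrthonormalBasis.volume_parallelepiped]
  simp [L', mul_comm, sub_eq_add_neg, add_comm]

/-- the same in terms of bases -/
theorem hiso_cov {u w u' w' : ℂ} (e : ∀ z, z ∈ Λ ↔ ∃ m n : ℤ, z = m * u + n * w)
    (e' : ∀ z, z ∈ Λ' ↔ ∃ m n : ℤ, z = m * u' + n * w') (y : Pt A' B') :
    |(conj u * w).im| * hh v (φ y) = c ^ 2 * |(conj u' * w').im| * hh v y := by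
  rw [← ar_cov h e, ← ar_cov h' e', hiso_ar pl h h2 h3 h' h2' h3' hc i]

end Vale.Agent.P014T.Hi
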